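import Vale.Agent.P211.Cert.Pair.Entries
import Vale.Agent.P211.Cert.Check.Root

/-!
P211, the roots for the form across the gradient and the Hessian weight, at `g ≤ f`.  Near the
equilibrium: three blow-ups.  Along the diagonal at small `A`: two blow-ups.  Away from both:
`f` on either side of `11 / 10`, with `A` the projective variable.
-/

namespace Vale.Agent.P211.Cert.Pair

open Chart

/-- The seven roots. -/
inductive Kind : Type
  | innerW | innerY | innerA | axisW | axisY | outerL | outerH
deriving DecidableEq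

variable {α : Type} [Lit α] [Add α] [Mul α] [Neg α]

/-- The first unknown away from the blow-ups. -/
def outerF (hi : Bool) (t : α) : α :=
  if hi then Lit.lit (11 / 10) + Lit.lit (31 / 100) * t else Lit.lit (11 / 10) * t

/-- The second one, below the first. -/
def outerG (hi : Bool) (v : Fin 4 → α) : α :=
  if hi then Lit.lit (11 / 10) * v 1 else outerF hi (v 0) * v 1

/-- The point of the cube. -/
def point (k : Kind) (v : Fin 4 → α) : Pt α :=
  let one : α := Lit.lit 1
  let r := Lit.lit (3 / 20) * v 0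
  let ρ := Lit.lit (1 / 10) * v 1
  let σ := Lit.lit (1 / 100) + Lit.lit (199 / 100) * v 0
  let wide := Lit.lit (3 / 2) * v 1
  match k with
  | .innerW => ⟨r, wide, one, v 2, one⟩
  | .innerY => ⟨r, v 1, v 2, one, one⟩
  | .innerA => ⟨Lit.lit (1 / 2) * v 0, one, wide, one, v 2⟩
  | .axisW => ⟨one, ρ, one, v 2, σ⟩
  | .axisY => ⟨one, ρ, v 2, one, σ⟩
  | .outerL => ⟨one, one, outerF false (v 0) + -outerG false v, v 3,
      Lit.lit 2 + -outerF false (v 0) + -outerG false v⟩
  | .outerH => ⟨one, one, outerF true (v 0) + -outerG true v, v 3,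
      Lit.lit 2 + -outerF true (v 0) + -outerG true v⟩

/-- `(2 - f³ - g³) / r²` in the scaled point. -/
def cubeQ (E : Env α) : α :=
  let t := E.r * E.r * E.s
  E.s * (Lit.lit 3 + Lit.lit (-3 / 2) * t + Lit.lit (1 / 4) * (t * t)) +
    Lit.lit (-3 / 2) * ((Lit.lit 1 + Lit.lit (-1 / 2) * t) * (E.w * E.w))

/-- `2 - q f - q g` away from the blow-ups. -/
def outerQ (hi : Bool) (v : Fin 4 → α) : α :=
  let f := outerF hi (v 0)
  let g := outerG hi v
  let c := if hi then (304496 / 68921 : ℚ) * (31 / 100) ^ 3 else 0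
  Lit.lit 2 + -(f * f * f) + Lit.lit c * (v 0 * v 0 * v 0) + -(g * g * g)

/-- What may be assumed on a root. -/
def sides (k : Kind) (v : Fin 4 → α) : List α :=
  let P := point k v
  let far := P.z * P.z + P.y + Lit.lit (-1 / 100)
  let near := P.y + Lit.lit (25 / 2) * P.s + Lit.lit (-1 / 4)
  match k with
  | .innerW | .innerY | .innerA => [cubeQ P.env]
  | .axisW | .axisY => [cubeQ P.env, Lit.lit 2 + -P.s + -(P.rho * P.z)]
  | .outerL => [outerQ false v, far, near]
  | .outerH => [outerQ true v, far, near]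

/-- The degree in the projective variable. -/
def degP : HP → ℕ
  | none => 0
  | some h => h.d.2.2.2

/-- A scale for what is assumed, so that its digits survive the shift of the packing. -/
def boost : ℚ := 2 ^ 28

/-- A nonnegative factor for the constraint: `c (1 - x) ^ (2 e) (1 + b x / 10)`, `x = 44 v / 35`. -/
def slackFactor (t : ℕ × ℕ × ℕ) (v : α) : α :=
  let x := Lit.lit (44 / 35) * v
  Lit.lit (t.1 : ℚ) * (npw (Lit.lit 1 + -x) (2 * t.2.1) *
    (Lit.lit 1 + Lit.lit ((t.2.2 : ℚ) / 10) * x))

/-- On the upper piece the multiple `slackFactor` of the constraint is taken off. -/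
def lessSlack (k : Kind) (t : ℕ × ℕ × ℕ) (a : HP) : HP :=
  if k = .outerH then a + -(slackFactor t (var 1) * outerQ true var) else a

/-- The powers of `1 - p 3` of the three entries. -/
def pairDegs (V : Vec) (k : Kind) : ℕ × ℕ × ℕ :=
  let P := point k var
  let a := degP (entT V P)
  let b := max (degP (entM V P)) ((a + degP (entS V P) + 1) / 2)
  (a, b, 2 * b - a)

/-- The matrix and the constraints of a root, each with its power of `1 - p 3`. -/
def pairList (V : Vec) (k : Kind) (t : ℕ × ℕ × ℕ) : List (ℕ × HP) :=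
  let P := point k var
  let n := pairDegs V k
  [(n.1, lessSlack k t (entT V P)), (n.2.1, entM V P), (0, none), (n.2.2, entS V P), (0, none), (0, Lit.lit boost)] ++
    (sides k var).map fun a => (degP a, Lit.lit boost * a)

/-- The test for the three powers. -/
def pairOK (V : Vec) (k : Kind) : Bool :=
  let n := pairDegs V k
  Nat.beq (n.1 + n.2.2) (2 * n.2.1)

/-- The scalar and the constraints of a root. -/
def hessList (V : Vec) (k : Kind) (t : ℕ × ℕ × ℕ) : List (ℕ × HP) :=
  let a := lessSlack k t (hessV V (point k var))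
  (degP a, a) :: (sides k var).map fun b => (degP b, Lit.lit boost * b)

open Vale.Agent.P098.Cert6.Kron (Poly Deg RootPar parOK evalR)

/-- The predecessor of a common denominator. -/
def commonQ (l : List (ℕ × HP)) : ℕ :=
  l.foldl (fun n a => match a.2 with | none => n | some h => n.lcm (h.q + 1)) 1 - 1

/-- A common degree. -/
def commonDeg (l : List (ℕ × HP)) : Deg :=
  l.foldl (fun d a => match a.2 with
    | none => (d.1, d.2.1, d.2.2.1, max d.2.2.2 a.1)
    | some h => (max d.1 h.d.1, max d.2.1 h.d.2.1, max d.2.2.1 h.d.2.2.1, max d.2.2.2 a.1))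
    (0, 0, 0, 0)

/-- An entry at power `n`, raised to the common degree without changing the value. -/
def fin (q : ℕ) (D : Deg) (a : ℕ × HP) : Poly :=
  pad1 (finish q (D.1, D.2.1, D.2.2.1, a.1) a.2) 3 (D.2.2.2 - a.1)

/-- The numerators at the common denominator and degree. -/
def polys (l : List (ℕ × HP)) : List Poly := l.map (fin (commonQ l) (commonDeg l))

/-- The test for `polys`. -/
def polysOK (l : List (ℕ × HP)) : Bool :=
  let D := commonDeg l
  l.all fun a => finishOK (commonQ l) (D.1, D.2.1, D.2.2.1, a.1) a.2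

noncomputable section

lemma evalR_polys {l : List (ℕ × HP)} (h : polysOK l = true) {i : ℕ} (hi : i < l.length)
    {p : Fin 4 → ℝ} (hp : p 3 < 1) :
    evalR p ((polys l).getD i (.const 0)) =
      (commonQ l + 1 : ℕ) * (1 - p 3) ^ (l.getD i (0, none)).1 * val p (l.getD i (0, none)).2 := by
  have e := evalR_finish hp (List.all_eq_true.1 h _ (List.getElem_mem hi))
  simpa [polys, fin, evalR_pad1, List.getD_eq_getElem?_getD, hi] using e

/-- A good root of the matrix checker. -/
def MatRoot (l : List (ℕ × HP)) (R : RootPar) (fs : List Vale.Agent.P098.Check6.Face) : Prop :=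
  polysOK l = true ∧ parOK R (commonDeg l) = true ∧
    Check.rootsOK R (commonDeg l) (polys l) fs = true ∧
    Check.Good ⟨false, false, false⟩ (Check.rootCfg R (commonDeg l))
      (Check.rootSt R (commonDeg l) (polys l) fs)

/-- A good root of the scalar checker. -/
def SignRoot (l : List (ℕ × HP)) (R : RootPar) (fs : List Vale.Agent.P098.Check6.Face) : Prop :=
  polysOK l = true ∧ parOK R (commonDeg l) = true ∧
    Check.rootsSignOK R (commonDeg l) (polys l) fs = true ∧
    Check.GoodSign (Check.rootCfg R (commonDeg l)) (Check.rootSt R (commonDeg l) (polys l) fs)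

variable {l : List (ℕ × HP)} {R : RootPar} {fs : List Vale.Agent.P098.Check6.Face}
  {p : Fin 4 → ℝ}

/-- The value of an entry. -/
def entry (p : Fin 4 → ℝ) (l : List (ℕ × HP)) (i : ℕ) : ℝ :=
  (1 - p 3) ^ (l.getD i (0, none)).1 * val p (l.getD i (0, none)).2

lemma MatRoot.form_nonneg (h : MatRoot l R fs) (hl : 6 ≤ l.length)
    (hp : ∀ i, p i ∈ Set.Icc (0 : ℝ) 1) (h3p : p 3 < 1)
    (haux : ∀ i, 6 ≤ i → i < l.length → 0 ≤ val p (l.getD i (0, none)).2) (T τ : ℝ) :
    0 ≤ entry p l 0 * T ^ 2 + 2 * entry p l 1 * T * τ + entry p l 3 * τ ^ 2 := by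
  obtain ⟨h0, h1, h2, h3⟩ := h
  have hlen : (polys l).length = l.length := by simp [polys]
  have hq : (0 : ℝ) < (commonQ l + 1 : ℕ) := by positivity
  have := Check.nonneg_of_good h1 (hlen ▸ hl) h2 h3 p hp (fun i h6 hi => by
    rw [evalR_polys h0 (hlen ▸ hi) h3p]
    exact mul_nonneg (mul_nonneg hq.le (pow_nonneg (by linarith) _)) (haux i h6 (hlen ▸ hi)))
    ![T, τ, 0] (fun i hi => by fin_cases i <;> simp [Check.V3.get] at hi)
  simp only [Vale.Agent.P098.Check6.quadForm, Fin.sum_univ_three] at this
  rw [show Check.tri 0 0 = 0 from rfl, show Check.tri 0 1 = 1 from rfl,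
    show Check.tri 0 2 = 2 from rfl, show Check.tri 1 0 = 1 from rfl,
    show Check.tri 1 1 = 3 from rfl, show Check.tri 1 2 = 4 from rfl,
    show Check.tri 2 0 = 2 from rfl, show Check.tri 2 1 = 4 from rfl,
    show Check.tri 2 2 = 5 from rfl, evalR_polys h0 (show 0 < l.length by omega) h3p,
    evalR_polys h0 (show 1 < l.length by omega) h3p,
    evalR_polys h0 (show 3 < l.length by omega) h3p] at this
  simp only [Matrix.cons_val, mul_zero, add_zero] at this
  refine nonneg_of_mul_nonneg_right (a := ((commonQ l + 1 : ℕ) : ℝ)) ?_ hq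
  simp only [entry]
  linarith

lemma SignRoot.nonneg (h : SignRoot l R fs) (hl : 1 ≤ l.length)
    (hp : ∀ i, p i ∈ Set.Icc (0 : ℝ) 1) (h3p : p 3 < 1)
    (haux : ∀ i, 1 ≤ i → i < l.length → 0 ≤ val p (l.getD i (0, none)).2) :
    0 ≤ val p (l.getD 0 (0, none)).2 := by
  obtain ⟨h0, h1, h2, h3⟩ := h
  have hlen : (polys l).length = l.length := by simp [polys]
  have hq : (0 : ℝ) < (commonQ l + 1 : ℕ) := by positivity
  have hy : 0 < 1 - p 3 := by linarith
  have := Check.nonneg_of_goodSign h1 (hlen ▸ hl) h2 h3 p hp (fun i h6 hi => by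
    rw [evalR_polys h0 (hlen ▸ hi) h3p]
    exact mul_nonneg (mul_nonneg hq.le (pow_nonneg hy.le _)) (haux i h6 (hlen ▸ hi)))
  rw [evalR_polys h0 hl h3p] at this
  exact nonneg_of_mul_nonneg_right this (mul_pos hq (pow_pos hy _))

end

end Vale.Agent.P211.Cert.Pair
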