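import Vale.Agent.P211.Cert.Pair.Roots
import Vale.Agent.P211.Cert.LevelFacts

/-!
P211, the form across the gradient and the Hessian weight are nonnegative on the domain when the
seven roots are good.
-/

namespace Vale.Agent.P211.Cert.Pair

open Chart

section Hom

variable {α β : Type} [Lit α] [Add α] [Mul α] [Neg α] [Lit β] [Add β] [Mul β] [Neg β] {φ : α → β}

lemma map_outerF (h : IsLitHom φ) (hi : Bool) (t : α) : φ (outerF hi t) = outerF hi (φ t) := by
  cases hi <;> simp [outerF, h.add, h.mul, h.lit]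

lemma map_outerG (h : IsLitHom φ) (hi : Bool) (v : Fin 4 → α) :
    φ (outerG hi v) = outerG hi (φ ∘ v) := by
  cases hi <;> simp [outerG, h.mul, h.lit, map_outerF h]

lemma map_point (h : IsLitHom φ) (k : Kind) (v : Fin 4 → α) :
    (point k v).map φ = point k (φ ∘ v) := by
  cases k <;> simp [point, Pt.map, h.add, h.mul, h.neg, h.lit, map_outerF h, map_outerG h]

lemma map_sides (h : IsLitHom φ) (k : Kind) (v : Fin 4 → α) :
    (sides k v).map φ = sides k (φ ∘ v) := by
  cases k <;>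
    simp [sides, cubeQ, outerQ, point, Pt.env, h.add, h.mul, h.neg, h.lit, map_outerF h,
      map_outerG h]

end Hom

noncomputable section

/-- The values of the variables: the last one projective. -/
def readPt (p : Fin 4 → ℝ) : Fin 4 → ℝ := fun i => if i = 3 then p i / (1 - p 3) else p i

lemma comp_var (p : Fin 4 → ℝ) : val p ∘ var = readPt p := funext val_var

lemma readPt_zero (a b c : ℝ) : readPt ![a, b, c, 0] = ![a, b, c, 0] := by
  funext i
  fin_cases i <;> simp [readPt]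

variable {f g A : ℝ}

lemma inner_band (hbox : InBox f g A) (hq : qLev f + qLev g ≤ 2) (hgf : g ≤ f)
    (hs : 2 - f - g ≤ 1 / 50) : f ≤ 11 / 10 ∧ f - g ≤ 3 / 2 * √(2 - f - g) := by
  obtain ⟨f0, f1, g0, g1, -⟩ := hbox
  have hf : f ≤ 11 / 10 := by
    by_contra ha
    have ha := not_le.1 ha
    have h1 := qLev_high ha.le f1
    have hb : g ≤ 11 / 10 := by
      by_contra hb
      linarith [qLev_high (not_le.1 hb).le g1]
    rw [(qLev_low hb).1] at hq
    nlinarith [pow_le_pow_left₀ (show (0 : ℝ) ≤ 88 / 100 - (f - 11 / 10) by linarith)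
      (show 88 / 100 - (f - 11 / 10) ≤ g by linarith) 3,
      sq_nonneg (f - 11 / 10), mul_nonneg (sub_pos.2 ha).le (sub_pos.2 ha).le]
  refine ⟨hf, ?_⟩
  have hsum := sum_le_two f0 f1 g0 g1 hq
  rw [(qLev_low hf).1, (qLev_low (hgf.trans hf)).1] at hq
  refine abs_le_of_sq_le_sq' ?_ (by positivity) |>.2
  rw [mul_pow, Real.sq_sqrt (by linarith)]
  nlinarith [mul_nonneg (show 0 ≤ 2 - f - g by linarith) (sq_nonneg (f - g)),
    mul_nonneg (show 0 ≤ 2 - f - g by linarith) (sub_nonneg.2 hs),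
    mul_nonneg (sq_nonneg (f - g)) (sub_nonneg.2 hs)]

lemma cubeQ_nonneg {E : Env ℝ} (hE : E.At f g A) (hr : 0 < E.r) (hq : f ^ 3 + g ^ 3 ≤ 2) :
    0 ≤ cubeQ E := by
  have e : 2 - f ^ 3 - g ^ 3 = E.r ^ 2 * cubeQ E := by
    rw [show f = 1 + (E.r * E.w - E.r ^ 2 * E.s) / 2 by linarith [hE.hw, hE.hs],
      show g = 1 + (-(E.r * E.w) - E.r ^ 2 * E.s) / 2 by linarith [hE.hw, hE.hs]]
    simp only [cubeQ, Lit.lit]
    push_cast
    ring
  exact nonneg_of_mul_nonneg_right (e ▸ (by linarith : (0 : ℝ) ≤ 2 - f ^ 3 - g ^ 3))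
    (pow_pos hr 2)

lemma exists_inner (hbox : InBox f g A) (hq : qLev f + qLev g ≤ 2) (hgf : g ≤ f)
    (hA : A ≤ 1 / 4) (hs : 2 - f - g ≤ 1 / 50) (hne : 0 < max A (2 - f - g)) :
    ∃ k, ∃ a b c : ℝ, (∀ i, ![a, b, c, 0] i ∈ Set.Icc (0 : ℝ) 1) ∧
      (point k ![a, b, c, 0]).At f g A ∧ ∀ e ∈ sides k ![a, b, c, 0], 0 ≤ e := by
  obtain ⟨hf, hw⟩ := inner_band hbox hq hgf hs
  obtain ⟨f0, f1, g0, g1, A0⟩ := hbox
  have σ0 : 0 ≤ 2 - f - g := by linarith [sum_le_two f0 f1 g0 g1 hq]
  rw [(qLev_low hf).1, (qLev_low (hgf.trans hf)).1] at hq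
  set σ := 2 - f - g with hσ
  set r := √(max A σ) with hr
  have r0 : 0 < r := Real.sqrt_pos.2 hne
  have r2 : r ^ 2 = max A σ := Real.sq_sqrt hne.le
  have r1 : r ≤ 1 / 2 := Real.sqrt_le_iff.2
    ⟨by norm_num, by norm_num; exact ⟨hA, by linarith⟩⟩
  have rσ : A ≤ σ → r ≤ 3 / 20 := fun h => Real.sqrt_le_iff.2
    ⟨by norm_num, by rw [max_eq_right h]; norm_num; linarith⟩
  set w := (f - g) / r with hwdef
  have w0 : 0 ≤ w := div_nonneg (sub_nonneg.2 hgf) r0.le
  have w1 : w ≤ 3 / 2 := by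
    rw [hwdef, div_le_iff₀ r0]
    exact hw.trans (by linarith [Real.sqrt_le_sqrt (le_max_right A σ)])
  have ew : f - g = r * w := by rw [hwdef]; field_simp
  have done : ∀ k : Kind, ∀ a b c : ℝ, (∀ i, ![a, b, c, 0] i ∈ Set.Icc (0 : ℝ) 1) →
      k = .innerW ∨ k = .innerY ∨ k = .innerA → (point k ![a, b, c, 0]).r = r →
      (point k ![a, b, c, 0]).At f g A →
      ∃ k, ∃ a b c : ℝ, (∀ i, ![a, b, c, 0] i ∈ Set.Icc (0 : ℝ) 1) ∧
        (point k ![a, b, c, 0]).At f g A ∧ ∀ e ∈ sides k ![a, b, c, 0], 0 ≤ e :=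
    fun k a b c hp hk er hP => by
    have hc : 0 ≤ cubeQ (point k ![a, b, c, 0]).env :=
      cubeQ_nonneg hP.env (by rw [show (point k ![a, b, c, 0]).env.r = r from er]; exact r0) hq
    refine ⟨k, a, b, c, hp, hP, ?_⟩
    rcases hk with rfl | rfl | rfl <;> simpa [sides] using hc
  rcases le_total σ A with h | h
  · rw [max_eq_left h] at r2
    have hs1 : σ / r ^ 2 ≤ 1 := by rw [div_le_one (by positivity), r2]; exact h
    refine done .innerA (2 * r) (2 / 3 * w) (σ / r ^ 2) (fun i => ?_) (by simp)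
      (by simp [point, Lit.lit]) ⟨?_, ?_, ?_⟩
    · fin_cases i <;> simp <;> first | exact ⟨by positivity, hs1⟩ | constructor <;> linarith
    all_goals simp [point, Lit.lit, ← r2, ← hσ, ew]
    · left; ring
    · field_simp
  · rw [max_eq_right h] at r2
    have r1 := rσ h
    set x := A / r ^ 2 with hx
    have x0 : 0 ≤ x := by positivity
    have x1 : x ≤ 1 := by rw [hx, div_le_one (by positivity), r2]; exact h
    have eA : A = r ^ 2 * x := by rw [hx]; field_simp
    have e20 : (3 : ℝ) / 20 * (20 / 3 * r) = r := by ring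
    by_cases hxw : x ≤ w ^ 2
    · have y1 : x / w ^ 2 ≤ 1 := div_le_one_of_le₀ hxw (sq_nonneg _)
      refine done .innerW (20 / 3 * r) (2 / 3 * w) (x / w ^ 2) (fun i => ?_) (by simp)
        (by simp [point, Lit.lit, e20]) ⟨?_, ?_, ?_⟩
      · fin_cases i <;> simp <;> first | exact ⟨by positivity, y1⟩ | constructor <;> linarith
      all_goals simp [point, Lit.lit, ← hσ, ← r2, ew, e20]
      · left; ring
      · rcases eq_or_ne w 0 with hw0 | hw0
        · rw [eA, show x = 0 by nlinarith]; simp [hw0]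
        · rw [eA]; field_simp
    · have hxw := not_le.1 hxw
      have xp : 0 < √x := Real.sqrt_pos.2 (lt_of_le_of_lt (sq_nonneg w) hxw)
      have z1 : w / √x ≤ 1 := by
        rw [div_le_one xp]
        exact (Real.le_sqrt w0 x0).2 hxw.le
      refine done .innerY (20 / 3 * r) (√x) (w / √x) (fun i => ?_) (by simp)
        (by simp [point, Lit.lit, e20]) ⟨?_, ?_, ?_⟩
      · fin_cases i <;> simp <;>
          first
          | exact ⟨by positivity, z1⟩
          | exact x1
          | exact Real.sqrt_le_one.2 x1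
          | constructor <;> linarith
      all_goals simp [point, Lit.lit, ← hσ, ← r2, ew, e20]
      · left; field_simp
      · rw [eA, Real.mul_self_sqrt x0]

lemma exists_axis (hbox : InBox f g A) (hq : qLev f + qLev g ≤ 2) (hgf : g ≤ f)
    (hA : A + (f - g) ^ 2 ≤ 1 / 100) (hs : 1 / 100 ≤ 2 - f - g) :
    ∃ k, ∃ a b c : ℝ, (∀ i, ![a, b, c, 0] i ∈ Set.Icc (0 : ℝ) 1) ∧
      (point k ![a, b, c, 0]).At f g A ∧ ∀ e ∈ sides k ![a, b, c, 0], 0 ≤ e := by
  obtain ⟨f0, f1, g0, g1, A0⟩ := hbox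
  set w := f - g with hwdef
  have w0 : 0 ≤ w := sub_nonneg.2 hgf
  have w1 : w ≤ 1 / 10 := by nlinarith
  have hf : f ≤ 11 / 10 := by linarith
  rw [(qLev_low hf).1, (qLev_low (hgf.trans hf)).1] at hq
  set t := (2 - f - g - 1 / 100) / (199 / 100) with ht
  have t0 : 0 ≤ t := div_nonneg (by linarith) (by norm_num)
  have t1 : t ≤ 1 := by rw [ht, div_le_one (by norm_num)]; linarith
  have et : 2 - f - g = 1 / 100 + 199 / 100 * t := by rw [ht]; ring
  have done : ∀ k : Kind, ∀ a b c : ℝ, (∀ i, ![a, b, c, 0] i ∈ Set.Icc (0 : ℝ) 1) →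
      k = .axisW ∨ k = .axisY → (point k ![a, b, c, 0]).r = 1 →
      (point k ![a, b, c, 0]).At f g A →
      ∃ k, ∃ a b c : ℝ, (∀ i, ![a, b, c, 0] i ∈ Set.Icc (0 : ℝ) 1) ∧
        (point k ![a, b, c, 0]).At f g A ∧ ∀ e ∈ sides k ![a, b, c, 0], 0 ≤ e :=
    fun k a b c hp hk er hP => by
    set p : Fin 4 → ℝ := ![a, b, c, 0] with hpdef
    have hc : 0 ≤ cubeQ (point k p).env :=
      cubeQ_nonneg hP.env (by rw [show (point k p).env.r = 1 from er]; norm_num) hq
    have hg : 0 ≤ (Lit.lit 2 : ℝ) + -(point k p).s + -((point k p).rho * (point k p).z) := by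
      have h1 := hP.hw
      have h2 := hP.hs
      rw [er] at h1 h2
      simp only [Lit.lit]
      push_cast
      linarith
    refine ⟨k, a, b, c, hp, hP, ?_⟩
    rcases hk with rfl | rfl <;> simp only [← hpdef, sides, List.forall_mem_cons] <;>
      exact ⟨hc, hg, by simp⟩
  by_cases hxw : A ≤ w ^ 2
  · have y1 : A / w ^ 2 ≤ 1 := div_le_one_of_le₀ hxw (sq_nonneg _)
    refine done .axisW (t) (10 * w) (A / w ^ 2) (fun i => ?_) (by simp)
      (by simp [point, Lit.lit]) ⟨?_, ?_, ?_⟩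
    · fin_cases i <;> simp <;>
        first | exact ⟨by positivity, y1⟩ | exact ⟨t0, t1⟩ | constructor <;> linarith
    all_goals simp [point, Lit.lit]
    · linarith
    · linarith
    · rcases eq_or_ne w 0 with hw0 | hw0
      · simp [hw0] at hxw ⊢; linarith
      · field_simp
  · have hxw := not_le.1 hxw
    have xp : 0 < √A := Real.sqrt_pos.2 (lt_of_le_of_lt (sq_nonneg w) hxw)
    have z1 : w / √A ≤ 1 := by rw [div_le_one xp]; exact (Real.le_sqrt w0 A0).2 hxw.le
    have a1 : √A ≤ 1 / 10 := Real.sqrt_le_iff.2 ⟨by norm_num, by nlinarith⟩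
    refine done .axisY (t) (10 * √A) (w / √A) (fun i => ?_) (by simp)
      (by simp [point, Lit.lit]) ⟨?_, ?_, ?_⟩
    · fin_cases i <;> simp <;>
        first
        | exact ⟨by positivity, z1⟩
        | exact ⟨t0, t1⟩
        | linarith
    all_goals simp [point, Lit.lit]
    · field_simp; linarith
    · linarith
    · rw [Real.mul_self_sqrt A0]

lemma exists_outer (hbox : InBox f g A) (hq : qLev f + qLev g ≤ 2) (hgf : g ≤ f)
    (hfar : 1 / 100 ≤ A + (f - g) ^ 2) (hnear : 1 / 4 ≤ A + 25 / 2 * (2 - f - g)) :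
    ∃ k, ∃ p : Fin 4 → ℝ, (∀ i, p i ∈ Set.Icc (0 : ℝ) 1) ∧ p 3 < 1 ∧
      (point k (readPt p)).At f g A ∧ ∀ e ∈ sides k (readPt p), 0 ≤ e := by
  obtain ⟨f0, f1, g0, g1, A0⟩ := hbox
  have hA : 0 < 1 + A := by linarith
  have u1 : A / (1 + A) < 1 := by rw [div_lt_one hA]; linarith
  have u0 : 0 ≤ A / (1 + A) := by positivity
  have hu : ∀ x y : ℝ, readPt ![x, y, 0, A / (1 + A)] = ![x, y, 0, A] := fun x y => by
    funext i
    fin_cases i <;> simp [readPt]
    field_simp
    ring
  rcases le_or_gt f (11 / 10) with hf | hf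
  · rw [(qLev_low hf).1, (qLev_low (hgf.trans hf)).1] at hq
    set x := f / (11 / 10) with hx
    have ex : 11 / 10 * x = f := by rw [hx]; ring
    set y := g / f with hy
    have ey : f * y = g := by
      rcases eq_or_ne f 0 with h | h
      · rw [h, show g = 0 by linarith]; simp
      · rw [hy]; field_simp
    refine ⟨.outerL, ![x, y, 0, A / (1 + A)], ?_, by simpa using u1, ?_, ?_⟩
    · intro i
      fin_cases i <;> simp <;>
        first
        | exact ⟨u0, u1.le⟩
        | exact ⟨by positivity, div_le_one_of_le₀ hgf f0⟩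
        | constructor <;> linarith
    all_goals rw [hu]
    · constructor <;> simp [point, outerF, outerG, Lit.lit, ex, ey] <;> ring
    · simp [sides, outerQ, point, outerF, outerG, Lit.lit, ex, ey]
      refine ⟨?_, ?_, ?_⟩ <;> nlinarith
  · have hg : g ≤ 11 / 10 := by
      by_contra hg
      linarith [qLev_high hf.le f1, qLev_high (not_le.1 hg).le g1]
    rw [(qLev_low hg).1, qLev, gamQ, max_eq_left (by linarith)] at hq
    set x := (f - 11 / 10) / (31 / 100) with hx
    have ex : 11 / 10 + 31 / 100 * x = f := by rw [hx]; ring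
    have x0 : 0 ≤ x := div_nonneg (by linarith) (by norm_num)
    have x1 : x ≤ 1 := by rw [hx, div_le_one (by norm_num)]; linarith
    set y := g / (11 / 10) with hy
    have ey : 11 / 10 * y = g := by rw [hy]; ring
    refine ⟨.outerH, ![x, y, 0, A / (1 + A)], ?_, by simpa using u1, ?_, ?_⟩
    · intro i
      fin_cases i <;> simp <;>
        first | exact ⟨u0, u1.le⟩ | exact ⟨x0, x1⟩ | constructor <;> linarith
    all_goals rw [hu]
    · constructor <;> simp [point, outerF, outerG, Lit.lit, ex, ey] <;> ring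
    · have e3 : (f - 11 / 10) ^ 3 = (31 / 100) ^ 3 * x ^ 3 := by rw [← ex]; ring
      simp [sides, outerQ, point, outerF, outerG, Lit.lit, ex, ey]
      refine ⟨?_, ?_, ?_⟩ <;> nlinarith

/-- Every point at `g ≤ f` is the equilibrium or lies on a root. -/
lemma exists_root (hbox : InBox f g A) (hq : qLev f + qLev g ≤ 2) (hgf : g ≤ f) :
    (f = g ∧ 2 - f - g = 0 ∧ A = 0) ∨ ∃ k, ∃ p : Fin 4 → ℝ, (∀ i, p i ∈ Set.Icc (0 : ℝ) 1) ∧
      p 3 < 1 ∧ (point k (readPt p)).At f g A ∧ ∀ e ∈ sides k (readPt p), 0 ≤ e := by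
  obtain ⟨f0, f1, g0, g1, A0⟩ := hbox
  by_cases hnear : A ≤ 1 / 4 ∧ 2 - f - g ≤ 1 / 50
  · rcases (le_max_of_le_left A0 : 0 ≤ max A (2 - f - g)).eq_or_lt with h | h
    · have hA : A = 0 := by linarith [le_max_left A (2 - f - g)]
      have hσ : 2 - f - g = 0 := by
        linarith [le_max_right A (2 - f - g), sum_le_two f0 f1 g0 g1 hq]
      have := (inner_band ⟨f0, f1, g0, g1, A0⟩ hq hgf hnear.2).2
      rw [hσ, Real.sqrt_zero] at this
      exact Or.inl ⟨by linarith, hσ, hA⟩
    obtain ⟨k, a, b, c, hp, hP, hs⟩ := exists_inner ⟨f0, f1, g0, g1, A0⟩ hq hgf hnear.1 hnear.2 h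
    exact Or.inr ⟨k, _, hp, by simp, by rw [readPt_zero]; exact ⟨hP, hs⟩⟩
  by_cases hax : A + (f - g) ^ 2 ≤ 1 / 100
  · have hs : 1 / 100 ≤ 2 - f - g := by
      rcases not_and_or.1 hnear with h | h
      · linarith [sq_nonneg (f - g)]
      · linarith

    obtain ⟨k, a, b, c, hp, hP, hs⟩ := exists_axis ⟨f0, f1, g0, g1, A0⟩ hq hgf hax hs
    exact Or.inr ⟨k, _, hp, by simp, by rw [readPt_zero]; exact ⟨hP, hs⟩⟩
  have hn : 1 / 4 ≤ A + 25 / 2 * (2 - f - g) := by
    rcases not_and_or.1 hnear with h | h <;> linarith [sum_le_two f0 f1 g0 g1 hq]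
  exact Or.inr (exists_outer ⟨f0, f1, g0, g1, A0⟩ hq hgf (not_le.1 hax).le hn)

variable {V : Vec}

/-- The seven good roots of the form across the gradient. -/
def PairData (V : Vec) : Prop :=
  ∀ k, pairOK V k = true ∧ ∃ t R fs, MatRoot (pairList V k t) R fs

/-- The seven good roots of the Hessian weight. -/
def HessData (V : Vec) : Prop := ∀ k, ∃ t R fs, SignRoot (hessList V k t) R fs

lemma sides_nonneg {k : Kind} {p : Fin 4 → ℝ} (h3 : p 3 < 1)
    (hs : ∀ e ∈ sides k (readPt p), 0 ≤ e) (i : ℕ)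
    (hi : i < (sides k (var : Fin 4 → HP)).length) :
    0 ≤ val p (Lit.lit boost * (sides k (var : Fin 4 → HP))[i]) := by
  rw [val_mul, val_lit]
  refine mul_nonneg (by norm_num [Lit.lit, boost]) (hs _ ?_)
  have := List.mem_map_of_mem (f := val p) (List.getElem_mem hi)
  rwa [map_sides (isLitHom_val h3), comp_var] at this

lemma lessSlack_le {k : Kind} {p : Fin 4 → ℝ} (h3 : p 3 < 1) (hp : p 1 ∈ Set.Icc (0 : ℝ) 1)
    (hs : ∀ e ∈ sides k (readPt p), 0 ≤ e) (t : ℕ × ℕ × ℕ) (a : HP) :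
    val p (lessSlack k t a) ≤ val p a := by
  unfold lessSlack
  split
  · next h =>
    subst h
    have e := (isLitHom_val (p := p) h3).npw
    have hQ : 0 ≤ val p (outerQ true var) := by
      have := sides_nonneg h3 hs 0 (by simp [sides])
      rw [val_mul, val_lit] at this
      exact nonneg_of_mul_nonneg_right (by simpa [sides] using this)
        (by norm_num [Lit.lit, boost])
    have hF : 0 ≤ val p (slackFactor t (var 1)) := by
      simp only [slackFactor, val_add h3, val_mul, val_neg, val_lit, e, val_var]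
      norm_num [Lit.lit, npw_real, pow_mul]
      have := hp.1
      positivity
    rw [val_add h3, val_neg, val_mul]
    linarith [mul_nonneg hF hQ]
  · rfl

theorem pair_half (hV : V.Fit) (hax : AxGe V.Y1) (h : PairData V) : ∀ f g A, InBox f g A →
    g ≤ f → qLev f + qLev g ≤ 2 → ∀ T τ : ℝ, 0 ≤ pairForm V f g A A T τ := by
  intro f g A hbox hgf hq T τ
  rcases exists_root hbox hq hgf with ⟨rfl, hσ, rfl⟩ | ⟨k, p, hp, h3, hP, hs⟩
  · simp [pairForm, scV, bB, hσ]
  obtain ⟨hn, t, R, fs, hroot⟩ := h k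
  simp only [pairOK, Nat.beq_eq] at hn
  have haux : ∀ i, 6 ≤ i → i < (pairList V k t).length →
      0 ≤ val p ((pairList V k t).getD i (0, none)).2 := fun i h6 hi => by
    obtain ⟨j, rfl⟩ := Nat.exists_eq_add_of_le h6
    simp only [pairList, List.length_append, List.length_cons, List.length_nil,
      List.length_map] at hi
    rw [pairList, List.getD_append_right _ _ _ _ (by simp),
      List.getD_eq_getElem _ _ (by simp; omega), List.getElem_map]
    exact sides_nonneg h3 hs _ _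
  set y := 1 - p 3 with hy
  set n := pairDegs V k with hn'
  have key := hroot.form_nonneg (p := p) (by simp [pairList]) hp h3 haux (T * y ^ n.2.1)
    (((point k (readPt p)).rho ^ 2 * τ) * y ^ n.1)
  simp only [entry, pairList, List.cons_append, List.getD_cons_zero, List.getD_cons_succ, ← hn',
    ← hy, map_entM (isLitHom_val h3), map_entS (isLitHom_val h3),
    map_point (isLitHom_val h3), comp_var] at key
  have hle := lessSlack_le h3 (hp 1) hs t (entT V (point k var))
  rw [map_entT (isLitHom_val h3), map_point (isLitHom_val h3), comp_var] at hle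
  set P := point k (readPt p)
  have y0 : 0 < y := by linarith
  have hrel : y ^ n.1 * y ^ n.2.2 = y ^ n.2.1 * y ^ n.2.1 := by
    rw [← pow_add, ← pow_add, hn, two_mul]
  have h0 : 0 ≤ (y ^ n.1 * y ^ n.2.1 * y ^ n.2.1) * (entT V P * T ^ 2 +
      2 * entM V P * T * (P.rho ^ 2 * τ) + entS V P * (P.rho ^ 2 * τ) ^ 2) := by
    linear_combination key + mul_nonneg (mul_nonneg (pow_nonneg y0.le n.1)
      (sub_nonneg.2 hle)) (sq_nonneg (T * y ^ n.2.1)) + (y ^ n.1 * (entS V P * (P.rho ^ 2 * τ) ^ 2)) * hrel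
  have h6 : 0 ≤ P.r ^ 6 := (show Even 6 from ⟨3, rfl⟩).pow_nonneg _
  linarith [pairForm_eq hV hax hP T τ,
    mul_nonneg h6 (nonneg_of_mul_nonneg_right h0 (by positivity))]

theorem hess_half (hV : V.Fit) (h : HessData V) : ∀ f g A, InBox f g A →
    g ≤ f → qLev f + qLev g ≤ 2 → 0 ≤ V.Y2.val (f - g) (2 - f - g) A := by
  intro f g A hbox hgf hq
  rcases exists_root hbox hq hgf with ⟨rfl, hσ, rfl⟩ | ⟨k, p, hp, h3, hP, hs⟩
  · rw [hess_eq hV (P := ⟨0, 0, 0, 0, 0⟩) ⟨by simp, by simp [hσ], by simp⟩]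
    simp
  obtain ⟨t, R, fs, hroot⟩ := h k
  have haux : ∀ i, 1 ≤ i → i < (hessList V k t).length →
      0 ≤ val p ((hessList V k t).getD i (0, none)).2 := fun i h1 hi => by
    obtain ⟨j, rfl⟩ := Nat.exists_eq_add_of_le' h1
    simp only [hessList, List.length_map, List.length_cons] at hi
    simp only [hessList, List.getD_cons_succ]
    rw [
      List.getD_eq_getElem _ _ (by simp; omega), List.getElem_map]
    exact sides_nonneg h3 hs _ _
  have key := hroot.nonneg (p := p) (by simp [hessList]) hp h3 haux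
  simp only [hessList, List.getD_cons_zero] at key
  replace key := key.trans (lessSlack_le h3 (hp 1) hs t (hessV V (point k var)))
  simp only [map_hessV (isLitHom_val h3), map_point (isLitHom_val h3), comp_var] at key
  rw [hess_eq hV hP]
  exact mul_nonneg ((show Even 4 from ⟨2, rfl⟩).pow_nonneg _) key

end

end Vale.Agent.P211.Cert.Pair
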