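import Vale.Agent.P211.Cert.Chart.Hom
import Vale.Agent.P211.Cert.Numer

/-!
P211, the form across the gradient and the Hessian weight on a point blown up at the equilibrium
and along the diagonal at `A = 0`: `f - g = r ρ z`, `2 - f - g = r² s`, `A = r² ρ² y`.  With
`τ' = ρ² τ` the form is `r ^ 6` times a form with polynomial entries.
-/

namespace Vale.Agent.P211.Cert.Pair

open Chart

/-- The coordinates of a point. -/
structure Pt (α : Type) where
  r : α
  rho : α
  z : α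
  y : α
  s : α

variable {α : Type} [Lit α] [Add α] [Mul α] [Neg α]

/-- The scaled point. -/
def Pt.env (P : Pt α) : Env α := ⟨P.r, P.rho * P.z, P.s, P.rho * P.rho * P.y, 10⟩

/-- The weight of a term along the diagonal. -/
def axWt (T : Term) : ℕ := 2 * T.a + T.b

/-- Every term vanishes to second order along the diagonal at `A = 0`. -/
def AxGe (Y : Num) : Prop := ∀ T ∈ Y, 2 ≤ axWt T

instance (Y : Num) : Decidable (AxGe Y) := by unfold AxGe; infer_instance

/-- A term over `r ^ 4 ρ ^ 2`. -/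
def Pt.dV (P : Pt α) (T : Term) : α :=
  Lit.lit (T.c : ℚ) * (npw P.y T.a * npw P.z T.b * npw P.s T.j) *
    (npw P.rho (axWt T - 2) * (npw P.r (wt T - 4) * npw P.env.one T.m))

/-- Its derivative in `σ` over `r ^ 2 ρ ^ 2`. -/
def Pt.dS (P : Pt α) (T : Term) : α :=
  Lit.lit (T.c * T.j : ℚ) * (npw P.y T.a * npw P.z T.b * npw P.s (T.j - 1)) *
    (npw P.rho (axWt T - 2) * (npw P.r (wt T - 4) * npw P.env.one T.m))

/-- The derivative in `f + g` over `r ^ 4 ρ ^ 2`. -/
def Pt.dU (P : Pt α) (Y : Num) : α :=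
  Lit.lit (-3) * (P.env.one * P.env.base) * lsum (Y.map P.dS) +
    Lit.lit (4 * P.env.kp) * (P.env.one * lsum (Y.map P.dV))

/-- Twice the entry at `T ^ 2`. -/
def entT (V : Vec) (P : Pt α) : α :=
  Lit.lit 4 * P.env.sV 4 V.Y2 + Lit.lit 4 * (P.env.x * P.env.sA 4 V.Y2)

/-- The entry at `T τ'`. -/
def entM (V : Vec) (P : Pt α) : α :=
  P.y * (Lit.lit 2 * P.env.sA 4 V.Y1 + P.env.sU 4 V.Y2)

/-- Twice the entry at `τ' ^ 2`. -/
def entS (V : Vec) (P : Pt α) : α :=
  Lit.lit 2 * (P.y * P.dU V.Y1)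

/-- The scaled Hessian weight. -/
def hessV (V : Vec) (P : Pt α) : α := lsum (V.Y2.map (P.env.tV 4))

section Hom

variable {β : Type} [Lit β] [Add β] [Mul β] [Neg β] {φ : α → β}

/-- Apply a map to a point. -/
def Pt.map (φ : α → β) (P : Pt α) : Pt β := ⟨φ P.r, φ P.rho, φ P.z, φ P.y, φ P.s⟩

lemma map_env (h : IsLitHom φ) (P : Pt α) : P.env.map φ = (P.map φ).env := by
  simp only [Pt.env, Pt.map, Env.map, h.mul]

lemma map_dU (h : IsLitHom φ) (P : Pt α) (Y : Num) : φ (P.dU Y) = (P.map φ).dU Y := by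
  have eV : φ (lsum (Y.map P.dV)) = lsum (Y.map (P.map φ).dV) := by
    rw [h.lsum, List.map_map]
    refine congrArg lsum (List.map_congr_left fun T _ => ?_)
    simp only [Function.comp, Pt.dV, h.mul, h.lit, h.npw, map_one h, map_env h]
    rfl
  have eS : φ (lsum (Y.map P.dS)) = lsum (Y.map (P.map φ).dS) := by
    rw [h.lsum, List.map_map]
    refine congrArg lsum (List.map_congr_left fun T _ => ?_)
    simp only [Function.comp, Pt.dS, h.mul, h.lit, h.npw, map_one h, map_env h]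
    rfl
  simp only [Pt.dU, h.add, h.mul, h.lit, map_one h, map_base h, eV, eS, map_env h]
  rfl

lemma map_entT (h : IsLitHom φ) (V : Vec) (P : Pt α) : φ (entT V P) = entT V (P.map φ) := by
  simp only [entT, h.add, h.mul, h.lit, map_sV h, map_sA h, map_env h]
  simp only [Pt.env, Pt.map, h.mul]

lemma map_entM (h : IsLitHom φ) (V : Vec) (P : Pt α) : φ (entM V P) = entM V (P.map φ) := by
  simp only [entM, h.add, h.mul, h.lit, map_sA h, map_sU h, map_env h]
  rfl

lemma map_entS (h : IsLitHom φ) (V : Vec) (P : Pt α) : φ (entS V P) = entS V (P.map φ) := by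
  simp only [entS, h.mul, h.lit, map_dU h]
  rfl

lemma map_hessV (h : IsLitHom φ) (V : Vec) (P : Pt α) : φ (hessV V P) = hessV V (P.map φ) := by
  rw [hessV, map_tV h P.env 4 V.Y2, map_env h]
  rfl

end Hom

noncomputable section

lemma wtGe_of_fit {Y : Num} (h : ∀ T ∈ Y, T.Fit) : WtGe 4 Y := fun T hT => (h T hT).1

/-- The point stands for `(f, g, A)`. -/
structure Pt.At (P : Pt ℝ) (f g A : ℝ) : Prop where
  hw : f - g = P.r * (P.rho * P.z)
  hs : 2 - f - g = P.r ^ 2 * P.s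
  hA : A = P.r ^ 2 * (P.rho * P.rho * P.y)

lemma Pt.At.env {P : Pt ℝ} {f g A : ℝ} (h : P.At f g A) : P.env.At f g A :=
  ⟨h.hw, h.hs, h.hA, by norm_num [Pt.env, kap]⟩

lemma Pt.sU_eq {P : Pt ℝ} {Y : Num} (h : AxGe Y) :
    P.env.sU 4 Y = P.rho ^ 2 * P.dU Y := by
  have key : ∀ (T : Term) (j : ℕ) (c : ℚ), 2 ≤ axWt T →
      (c : ℝ) * ((P.rho * P.rho * P.y) ^ T.a * ((P.rho * P.z) ^ T.b * P.s ^ j)) *
          (P.r ^ (wt T - 4) * P.env.one ^ T.m) =
        P.rho ^ 2 * ((c : ℝ) * (P.y ^ T.a * P.z ^ T.b * P.s ^ j) *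
          (P.rho ^ (axWt T - 2) * (P.r ^ (wt T - 4) * P.env.one ^ T.m))) := fun T j c hT => by
    obtain ⟨n, hn⟩ := Nat.exists_eq_add_of_le hT
    rw [hn, Nat.add_sub_cancel_left]
    have : P.rho ^ (2 * T.a) * P.rho ^ T.b = P.rho ^ 2 * P.rho ^ n := by
      rw [← pow_add, ← pow_add]; exact congrArg _ hn
    rw [mul_pow, mul_pow, mul_pow, ← pow_add, ← two_mul]
    linear_combination
      ((c : ℝ) * P.y ^ T.a * P.z ^ T.b * P.s ^ j * P.r ^ (wt T - 4) * P.env.one ^ T.m) * this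
  have eV : lsum (Y.map (P.env.tV 4)) = P.rho ^ 2 * lsum (Y.map P.dV) := by
    rw [lsum_real, lsum_real]
    refine sum_scaled fun T hT => ?_
    simp only [Env.tV, Env.mono, Pt.dV, npw_real, Lit.lit]
    exact key T T.j _ (h T hT)
  have eS : lsum (Y.map (P.env.tS 4)) = P.rho ^ 2 * lsum (Y.map P.dS) := by
    rw [lsum_real, lsum_real]
    refine sum_scaled fun T hT => ?_
    simp only [Env.tS, Env.mono, Pt.dS, npw_real, Lit.lit]
    exact key T (T.j - 1) _ (h T hT)
  simp only [Env.sU, Pt.dU, eV, eS, Lit.lit]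
  ring

variable {V : Vec} {P : Pt ℝ} {f g A : ℝ}

theorem pairForm_eq (hV : V.Fit) (hax : AxGe V.Y1) (hP : P.At f g A) (T τ : ℝ) :
    2 * pairForm V f g A A T τ =
      P.r ^ 6 * (entT V P * T ^ 2 + 2 * entM V P * T * (P.rho ^ 2 * τ) +
        entS V P * (P.rho ^ 2 * τ) ^ 2) := by
  have hE := hP.env
  have h1 := wtGe_of_fit (Vec.fit_mem hV).2.1
  have h2 := wtGe_of_fit (Vec.fit_mem hV).2.2.1
  have ex : P.env.x = P.rho * P.rho * P.y := rfl
  have er : P.env.r = P.r := rfl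
  rw [pairForm, hE.scV_eq h2, hE.scA_eq h2 (by norm_num), hE.scU_eq h1 (by norm_num),
    hE.scA_eq h1 (by norm_num), hE.scU_eq h2 (by norm_num), Pt.sU_eq hax, er, hP.hA]
  simp only [entT, entM, entS, Lit.lit, Rat.cast_ofNat, ex]
  ring

theorem hess_eq (hV : V.Fit) (hP : P.At f g A) :
    V.Y2.val (f - g) (2 - f - g) A = P.r ^ 4 * hessV V P := by
  have hE := hP.env
  rw [hE.hw, hE.hs, hE.hA, val_scaled (wtGe_of_fit (Vec.fit_mem hV).2.2.1)]
  rfl

end

end Vale.Agent.P211.Cert.Pair
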