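import Vale.Agent.P211.Cert.Pair.Cover
import Vale.Agent.P211.Cert.Vector
import Vale.Agent.P211.Cert.Pair.Data.PairInnerW
import Vale.Agent.P211.Cert.Pair.Data.PairInnerY
import Vale.Agent.P211.Cert.Pair.Data.PairInnerA
import Vale.Agent.P211.Cert.Pair.Data.PairAxisW
import Vale.Agent.P211.Cert.Pair.Data.PairAxisY
import Vale.Agent.P211.Cert.Pair.Data.PairOuterL
import Vale.Agent.P211.Cert.Pair.Data.PairOuterH
import Vale.Agent.P211.Cert.Pair.Data.HessInnerW
import Vale.Agent.P211.Cert.Pair.Data.HessInnerY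
import Vale.Agent.P211.Cert.Pair.Data.HessInnerA
import Vale.Agent.P211.Cert.Pair.Data.HessAxisW
import Vale.Agent.P211.Cert.Pair.Data.HessAxisY
import Vale.Agent.P211.Cert.Pair.Data.HessOuterL
import Vale.Agent.P211.Cert.Pair.Data.HessOuterH

/-!
P211, the form across the gradient and the Hessian weight of the vector are nonnegative on the domain.
-/

namespace Vale.Agent.P211.Cert

open Pair

theorem vecV_axGe : AxGe vecV.Y1 := by decide +kernel

theorem pairData_vecV : PairData vecV := fun k => by
  cases k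
  · exact ⟨by decide +kernel, _, _, _, PairInnerW.root⟩
  · exact ⟨by decide +kernel, _, _, _, PairInnerY.root⟩
  · exact ⟨by decide +kernel, _, _, _, PairInnerA.root⟩
  · exact ⟨by decide +kernel, _, _, _, PairAxisW.root⟩
  · exact ⟨by decide +kernel, _, _, _, PairAxisY.root⟩
  · exact ⟨by decide +kernel, _, _, _, PairOuterL.root⟩
  · exact ⟨by decide +kernel, _, _, _, PairOuterH.root⟩

theorem hessData_vecV : HessData vecV := fun k => by
  cases k
  · exact ⟨_, _, _, HessInnerW.root⟩
  · exact ⟨_, _, _, HessInnerY.root⟩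
  · exact ⟨_, _, _, HessInnerA.root⟩
  · exact ⟨_, _, _, HessAxisW.root⟩
  · exact ⟨_, _, _, HessAxisY.root⟩
  · exact ⟨_, _, _, HessOuterL.root⟩
  · exact ⟨_, _, _, HessOuterH.root⟩

noncomputable section

/-- The form across the gradient is nonnegative on the half `g ≤ f` of the domain. -/
theorem pair_vecV : ∀ f g A, InBox f g A → g ≤ f → qLev f + qLev g ≤ 2 →
    ∀ T τ : ℝ, 0 ≤ pairForm vecV f g A A T τ :=
  pair_half vecV_fit vecV_axGe pairData_vecV

/-- The Hessian weight is nonnegative on the half `g ≤ f` of the domain. -/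
theorem hess_vecV : ∀ f g A, InBox f g A → g ≤ f → qLev f + qLev g ≤ 2 →
    0 ≤ vecV.Y2.val (f - g) (2 - f - g) A :=
  hess_half vecV_fit hessData_vecV

end

end Vale.Agent.P211.Cert
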